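import Vale.Agent.Results.P190.A1_ring3
import Vale.Agent.Results.P190.A_main
import Vale.Agent.Results.P190.B_fsplit
import Vale.Agent.Results.P190.D_domain3

/-!
Small Cohen-Macaulay modules: the union of the four criteria of this problem in one statement.
-/

namespace Vale.Agent.Results.P190.AAA_union

open CategoryTheory Abelian RingTheory.Sequence IsLocalRing

universe u

/-- `R` has a small Cohen-Macaulay module: a nonzero finitely generated module with a regular
sequence of length `dim R` inside the maximal ideal. -/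
def HasSmallCM (R : Type u) [CommRing R] [IsLocalRing R] : Prop :=
  ∃ (M : Type u) (_ : AddCommGroup M) (_ : Module R M) (_ : Module.Finite R M)
    (_ : Nontrivial M) (rs : List R), IsRegular M rs ∧ (∀ x ∈ rs, x ∈ maximalIdeal R) ∧
      (rs.length : WithBot ℕ∞) = ringKrullDim R

/-- `R` is F-finite and F-split in prime characteristic `p`: its Frobenius map is module-finite
and there is an additive `φ : R → R` with `φ (r ^ p * s) = r * φ s` and `φ 1 = 1`. -/
def FFiniteFSplit (R : Type u) [CommRing R] (p : ℕ) [Fact p.Prime] [CharP R p] : Prop :=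
  (frobenius R p).Finite ∧ ∃ φ : R →+ R, (∀ r s, φ (r ^ p * s) = r * φ s) ∧ φ 1 = 1

/-- Class one: complete Noetherian local rings of dimension three, F-finite and F-split. -/
def ClassOne : Prop :=
  ∀ {R : Type u} [CommRing R] [IsLocalRing R] [IsNoetherianRing R]
    [IsAdicComplete (maximalIdeal R) R] (_ : ringKrullDim R = 3)
    (p : ℕ) [Fact p.Prime] [CharP R p] (_ : FFiniteFSplit R p), HasSmallCM R

/-- Class two: local rings module-finite over a Cohen-Macaulay Noetherian local domain `A` with
`pd_A R ≤ 1` and `Ext¹_A(R, A)` cyclic over `R`, in any characteristic and dimension. -/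
def ClassTwo : Prop :=
  ∀ {A R : Type u} [CommRing A] [IsDomain A] [IsLocalRing A] [IsNoetherianRing A]
    [CommRing R] [IsLocalRing R] [Algebra A R] [Module.Finite A R] [FaithfulSMul A R]
    (as : List A) (_ : IsRegular A as) (_ : (as.length : WithBot ℕ∞) = ringKrullDim A)
    (_ : HasProjectiveDimensionLT (ModuleCat.of A R) 2)
    (e : Ext (ModuleCat.of A R) (ModuleCat.of A A) 1)
    (_ : ∀ t : Ext (ModuleCat.of A R) (ModuleCat.of A A) 1, ∃ r : R,
      t = (Ext.mk₀ (ModuleCat.ofHom (LinearMap.mulLeft A r))).comp e (zero_add 1)),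
    HasSmallCM R

/-- Class three: Noetherian local F-finite F-split rings with `x₁, …, x_d`, `d = dim R`, such that
the `x_{i+1}`-power torsion of `R / (x₁^t, …, x_i^t)` has length bounded independently of `t`. -/
def ClassThree : Prop :=
  ∀ {R : Type u} [CommRing R] [IsLocalRing R] [IsNoetherianRing R] (p : ℕ)
    [Fact p.Prime] [CharP R p] (_ : FFiniteFSplit R p)
    (xs : List R) (_ : ∀ x ∈ xs, x ∈ maximalIdeal R)
    (_ : (xs.length : WithBot ℕ∞) = ringKrullDim R)
    (_ : ∀ (i : ℕ) (hi : i < xs.length), ∃ C : ℕ, ∀ t : ℕ,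
      Module.length R (Submodule.torsion' R (R ⧸ Ideal.ofList ((xs.take i).map (· ^ t)))
        (Submonoid.powers xs[i])) ≤ C),
    HasSmallCM R

/-- Class four: local domains, F-finite and F-split, module-finite over a regular local ring of
dimension three, whose normalization `S` is local and module-finite (and then `dim R = 3`). -/
def ClassFour : Prop :=
  ∀ {A R S : Type u} [CommRing A] [IsDomain A] [IsLocalRing A] [IsNoetherianRing A]
    [IsIntegrallyClosed A] [CommRing R] [IsDomain R] [IsLocalRing R] [Algebra A R]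
    [Module.Finite A R] [FaithfulSMul A R] [CommRing S] [IsDomain S] [IsLocalRing S]
    [IsIntegrallyClosed S] [Algebra R S] [Module.Finite R S] [FaithfulSMul R S]
    (_ : ∀ s : S, ∃ r d : R, d ≠ 0 ∧ algebraMap R S d * s = algebraMap R S r)
    (a₁ a₂ a₃ : A) (_ : IsRegular A [a₁, a₂, a₃])
    (_ : maximalIdeal A = Ideal.span {a₁, a₂, a₃})
    (p : ℕ) [Fact p.Prime] [CharP R p] (_ : FFiniteFSplit R p),
    ringKrullDim R = 3 ∧ HasSmallCM R

/-- All four classes of local rings have small Cohen-Macaulay modules. -/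
theorem result : ClassOne.{u} ∧ ClassTwo.{u} ∧ ClassThree.{u} ∧ ClassFour.{u} := by
  refine ⟨?_, ?_, ?_, ?_⟩
  · rintro R _ _ _ _ hdim p _ _ ⟨hfin, φ, hφ, hφ1⟩
    exact Vale.Agent.Results.P190.A1_ring3.result hdim p hfin φ hφ hφ1
  · intro A R _ _ _ _ _ _ _ _ _ as has hlen hpd e hcyc
    exact Vale.Agent.Results.P190.A_main.result as has hlen hpd e hcyc
  · rintro R _ _ _ p _ _ ⟨hfin, φ, hφ, hφ1⟩ xs hxs hdim hflc
    exact Vale.Agent.Results.P190.B_fsplit.result p hfin φ hφ hφ1 xs hxs hdim hflc
  · rintro A R S _ _ _ _ _ _ _ _ _ _ _ _ _ _ _ _ _ _ hbir a₁ a₂ a₃ hreg hm p _ _ ⟨hfin, φ, hφ, hφ1⟩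
    exact Vale.Agent.Results.P190.D_domain3.result hbir a₁ a₂ a₃ hreg hm p hfin φ hφ hφ1

end Vale.Agent.Results.P190.AAA_union
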